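import Crest.Agent.R176.Gen.Pres206

/-!
R176 part A, block Q5 (helper206): linearisation.  If `1 - B` is a unit for all square matrices `B`
over `A_1 + A_2`, for all coefficient rings of characteristic two, then every square matrix over
the augmentation ideal of `A st (ZMod 2)` is nilpotent.
-/

set_option autoImplicit false

namespace Crest.Agent.R176.Gen

open Polynomial

section block

variable {R : Type*} [Ring R] {m n : Type*} [Fintype m] [Fintype n] [DecidableEq m] [DecidableEq n]

theorem isUnit_of_fromBlocks_one {M : Matrix m m R}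
    (h : IsUnit (Matrix.fromBlocks M 0 0 (1 : Matrix n n R))) : IsUnit M := by
  obtain ⟨u, hu⟩ := h
  have h1 := u.mul_inv
  have h2 := u.inv_mul
  rw [hu, ← Matrix.fromBlocks_toBlocks (↑u⁻¹ : Matrix (m ⊕ n) (m ⊕ n) R),
    Matrix.fromBlocks_multiply, ← Matrix.fromBlocks_one, Matrix.fromBlocks_inj] at h1
  rw [hu, ← Matrix.fromBlocks_toBlocks (↑u⁻¹ : Matrix (m ⊕ n) (m ⊕ n) R),
    Matrix.fromBlocks_multiply, ← Matrix.fromBlocks_one, Matrix.fromBlocks_inj] at h2
  obtain ⟨h1, -⟩ := h1
  obtain ⟨h2, -⟩ := h2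
  simp only [Matrix.zero_mul, add_zero, Matrix.mul_zero] at h1 h2
  exact ⟨⟨M, _, h1, h2⟩, rfl⟩

theorem isUnit_fromBlocks_upper (U : Matrix m n R) :
    IsUnit (Matrix.fromBlocks (1 : Matrix m m R) U 0 (1 : Matrix n n R)) := by
  refine ⟨⟨Matrix.fromBlocks 1 U 0 1, Matrix.fromBlocks 1 (-U) 0 1, ?_, ?_⟩, rfl⟩ <;>
  · rw [Matrix.fromBlocks_multiply, ← Matrix.fromBlocks_one, Matrix.fromBlocks_inj]
    simp

theorem isUnit_fromBlocks_lower (V : Matrix n m R) :
    IsUnit (Matrix.fromBlocks (1 : Matrix m m R) 0 V (1 : Matrix n n R)) := by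
  refine ⟨⟨Matrix.fromBlocks 1 0 V 1, Matrix.fromBlocks 1 0 (-V) 1, ?_, ?_⟩, rfl⟩ <;>
  · rw [Matrix.fromBlocks_multiply, ← Matrix.fromBlocks_one, Matrix.fromBlocks_inj]
    simp

/-- Schur complement. -/
theorem isUnit_of_schur {P : Matrix m m R} {U : Matrix m n R} {V : Matrix n m R}
    (h : IsUnit (1 - Matrix.fromBlocks P U V 0)) : IsUnit (1 - (P + U * V)) := by
  have e : (1 : Matrix (m ⊕ n) (m ⊕ n) R) - Matrix.fromBlocks P U V 0 =
      Matrix.fromBlocks 1 (-U) 0 1 * Matrix.fromBlocks (1 - (P + U * V)) 0 0 1 *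
        Matrix.fromBlocks 1 0 (-V) 1 := by
    rw [Matrix.fromBlocks_multiply, Matrix.fromBlocks_multiply, ← Matrix.fromBlocks_one,
      sub_eq_add_neg, Matrix.fromBlocks_neg, Matrix.fromBlocks_add, Matrix.fromBlocks_inj]
    simp only [Matrix.one_mul, Matrix.zero_mul, Matrix.mul_zero, Matrix.mul_one, add_zero,
      zero_add, neg_zero, and_true, Matrix.neg_mul, Matrix.mul_neg, neg_neg, and_self]
    abel
  rw [e] at h
  have h1 := (isUnit_fromBlocks_lower (m := m) (n := n) (R := R) (-V))
  have h2 := (isUnit_fromBlocks_upper (m := m) (n := n) (R := R) (-U))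
  have h3 : IsUnit (Matrix.fromBlocks (1 - (P + U * V)) 0 0 (1 : Matrix n n R)) := by
    have := (h2.unit⁻¹.isUnit.mul h).mul h1.unit⁻¹.isUnit
    have e2 : (↑h2.unit⁻¹ : Matrix (m ⊕ n) (m ⊕ n) R) * (Matrix.fromBlocks 1 (-U) 0 1 *
        Matrix.fromBlocks (1 - (P + U * V)) 0 0 1 * Matrix.fromBlocks 1 0 (-V) 1) *
        (↑h1.unit⁻¹ : Matrix (m ⊕ n) (m ⊕ n) R) =
        Matrix.fromBlocks (1 - (P + U * V)) 0 0 (1 : Matrix n n R) := by
      rw [← mul_assoc, ← mul_assoc, IsUnit.val_inv_mul, one_mul, mul_assoc, IsUnit.mul_val_inv,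
        mul_one]
    rwa [e2] at this
  exact isUnit_of_fromBlocks_one h3

end block

variable {L : Type} (st : L → L → Option (L × L))

/-- span of the words of length between `1` and `d` -/
def Pd (k : Type) [CommRing k] (d : ℕ) : Submodule k (A st k) :=
  Submodule.span k {r | ∃ w : List L, 1 ≤ w.length ∧ w.length ≤ d ∧ A.w st k w = r}

theorem Pd_mono (k : Type) [CommRing k] {d e : ℕ} (h : d ≤ e) : Pd st k d ≤ Pd st k e := by
  refine Submodule.span_mono ?_
  rintro _ ⟨w, h1, h2, rfl⟩
  exact ⟨w, h1, h2.trans h, rfl⟩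

theorem Pd_one_le (k : Type) [CommRing k] : Pd st k 1 ≤ A.deg st k 1 := by
  refine Submodule.span_le.2 ?_
  rintro _ ⟨w, h1, h2, rfl⟩
  exact A.w_mem_deg st k (le_antisymm h2 h1)

/-- splitting off the first letter -/
theorem Pd_succ_split (k : Type) [CommRing k] [Fintype L] {d : ℕ} {b : A st k}
    (h : b ∈ Pd st k (d + 1)) :
    ∃ b0 ∈ Pd st k 1, ∃ c : L → A st k, (∀ a, c a ∈ Pd st k d) ∧
      b = b0 + ∑ a, (A.model st k).f a * c a := by
  classical
  induction h using Submodule.span_induction with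
  | mem r hr =>
    obtain ⟨w, h1, h2, rfl⟩ := hr
    cases w with
    | nil => simp at h1
    | cons a w =>
      by_cases hw : w = []
      · subst hw
        refine ⟨A.w st k [a], Submodule.subset_span ⟨[a], le_rfl, le_rfl, rfl⟩, fun _ => 0,
          fun _ => Submodule.zero_mem _, by simp⟩
      · refine ⟨0, Submodule.zero_mem _, fun a' => if a' = a then A.w st k w else 0, ?_, ?_⟩
        · intro a'
          dsimp only
          split_ifs
          · refine Submodule.subset_span ⟨w, ?_, ?_, rfl⟩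
            · exact List.length_pos_iff.2 hw
            · simpa using h2
          · exact Submodule.zero_mem _
        · rw [zero_add, Finset.sum_eq_single a]
          · simp
          · intro b _ hb; simp [hb]
          · intro h; exact absurd (Finset.mem_univ a) h
  | zero => exact ⟨0, Submodule.zero_mem _, fun _ => 0, fun _ => Submodule.zero_mem _, by simp⟩
  | add r s _ _ hr hs =>
    obtain ⟨b0, hb0, c, hc, rfl⟩ := hr
    obtain ⟨b1, hb1, c', hc', rfl⟩ := hs
    refine ⟨b0 + b1, Submodule.add_mem _ hb0 hb1, fun a => c a + c' a,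
      fun a => Submodule.add_mem _ (hc a) (hc' a), ?_⟩
    simp only [mul_add, Finset.sum_add_distrib]
    abel
  | smul x r _ hr =>
    obtain ⟨b0, hb0, c, hc, rfl⟩ := hr
    refine ⟨x • b0, Submodule.smul_mem _ _ hb0, fun a => x • c a,
      fun a => Submodule.smul_mem _ _ (hc a), ?_⟩
    simp only [mul_smul_comm, smul_add, Finset.smul_sum]

/-- Higman's linearisation. -/
theorem isUnit_of_linear (k : Type) [CommRing k] [Fintype L]
    (H : ∀ (ι : Type) [Fintype ι] [DecidableEq ι] (B : Matrix ι ι (A st k)),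
      (∀ i j, B i j ∈ Pd st k 1) → IsUnit (1 - B)) :
    ∀ (d : ℕ) (ι : Type) [Fintype ι] [DecidableEq ι] (B : Matrix ι ι (A st k)),
      (∀ i j, B i j ∈ Pd st k (d + 1)) → IsUnit (1 - B) := by
  classical
  intro d
  induction d with
  | zero => intro ι _ _ B hB; exact H ι B hB
  | succ d ih =>
    intro ι _ _ B hB
    choose b0 hb0 c hc hbc using fun i j => Pd_succ_split st k (hB i j)
    let U : Matrix ι (L × ι) (A st k) := Matrix.of fun i aj =>
      if i = aj.2 then (A.model st k).f aj.1 else 0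
    let V : Matrix (L × ι) ι (A st k) := Matrix.of fun ai j => c ai.2 j ai.1
    have e : B = Matrix.of b0 + U * V := by
      ext i j
      rw [Matrix.add_apply, Matrix.mul_apply, Fintype.sum_prod_type_right]
      simp only [U, V, Matrix.of_apply]
      rw [Finset.sum_eq_single i]
      · simpa using hbc i j
      · intro x _ hx
        refine Finset.sum_eq_zero fun a _ => ?_
        rw [if_neg (Ne.symm hx), zero_mul]
      · intro h; exact absurd (Finset.mem_univ i) h
    rw [e]
    refine isUnit_of_schur (ih (ι ⊕ (L × ι)) _ ?_)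
    rintro (i | i) (j | j)
    · exact Pd_mono st k (by omega) (hb0 i j)
    · simp only [Matrix.fromBlocks_apply₁₂, U, Matrix.of_apply]
      split_ifs
      · rw [← A.w_singleton]
        exact Submodule.subset_span ⟨[j.1], le_rfl, by simp, rfl⟩
      · exact Submodule.zero_mem _
    · exact hc _ _ _
    · exact Submodule.zero_mem _

/-- reindexing -/
theorem isUnit_reindex {R : Type*} [Ring R] {ι κ : Type*} [Fintype ι] [Fintype κ]
    [DecidableEq ι] [DecidableEq κ] (e : ι ≃ κ) {B : Matrix ι ι R}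
    (h : IsUnit (1 - B.reindex e e)) : IsUnit (1 - B) := by
  have h1 : IsUnit ((Matrix.reindexRingEquiv R e) (1 - B)) := by
    rw [map_sub, map_one]
    exact h
  exact (MulEquiv.isUnit_map (Matrix.reindexRingEquiv R e)).1 h1

/-! ### extraction of nilpotence -/

/-- If `1 - X B` is invertible in polynomial matrices, then `B` is nilpotent. -/
theorem isNilpotent_of_isUnit_poly {R : Type*} [Ring R] {ι : Type*} [Fintype ι] [DecidableEq ι]
    (B : Matrix ι ι R)
    (h : IsUnit (1 - (Matrix.of fun i j => X * C (B i j) : Matrix ι ι R[X]))) :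
    IsNilpotent B := by
  obtain ⟨u, hu⟩ := h
  have h1 := u.mul_inv
  rw [hu] at h1
  set V : Matrix ι ι R[X] := ↑u⁻¹ with hV
  have h2 : V = 1 + (Matrix.of fun i j => X * C (B i j) : Matrix ι ι R[X]) * V := by
    rw [sub_mul, one_mul, sub_eq_iff_eq_add] at h1
    exact h1
  -- coefficients
  let cf : ℕ → Matrix ι ι R := fun n => V.map fun p => p.coeff n
  have hprod : ∀ n, ((Matrix.of fun i j => X * C (B i j) : Matrix ι ι R[X]) * V).map
      (fun p => p.coeff (n + 1)) = B * cf n := by
    intro n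
    ext i j
    simp only [Matrix.map_apply, Matrix.mul_apply, Matrix.of_apply, cf]
    rw [Polynomial.finsetSum_coeff]
    refine Finset.sum_congr rfl fun x _ => ?_
    rw [mul_assoc, Polynomial.coeff_X_mul, Polynomial.coeff_C_mul]
  have h0 : cf 0 = 1 := by
    ext i j
    have := congrArg (fun M : Matrix ι ι R[X] => (M i j).coeff 0) h2
    simp only [Matrix.add_apply, Polynomial.coeff_add, Matrix.mul_apply, Matrix.of_apply,
      Polynomial.finsetSum_coeff, mul_assoc, Polynomial.coeff_X_mul_zero,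
      Finset.sum_const_zero, add_zero] at this
    simp only [cf, Matrix.map_apply]
    rw [this]
    by_cases hij : i = j
    · subst hij; simp
    · simp [Matrix.one_apply_ne hij]
  have hs : ∀ n, cf (n + 1) = B * cf n := by
    intro n
    rw [← hprod n]
    ext i j
    have := congrArg (fun M : Matrix ι ι R[X] => (M i j).coeff (n + 1)) h2
    simp only [Matrix.add_apply, Polynomial.coeff_add] at this
    simp only [cf, Matrix.map_apply]
    rw [this]
    by_cases hij : i = j
    · subst hij; simp [Polynomial.coeff_one]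
    · simp [Matrix.one_apply_ne hij]
  have hpow : ∀ n, cf n = B ^ n := by
    intro n
    induction n with
    | zero => rw [h0, pow_zero]
    | succ n ih => rw [hs, ih, pow_succ']
  -- bounded degree
  obtain ⟨N, hN⟩ : ∃ N : ℕ, ∀ i j, (V i j).natDegree < N := by
    refine ⟨(Finset.univ.sup fun ij : ι × ι => (V ij.1 ij.2).natDegree) + 1, fun i j => ?_⟩
    exact Nat.lt_succ_of_le (Finset.le_sup (f := fun ij : ι × ι => (V ij.1 ij.2).natDegree)
      (Finset.mem_univ (i, j)))
  refine ⟨N, ?_⟩
  rw [← hpow]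
  ext i j
  exact Polynomial.coeff_eq_zero_of_natDegree_lt (hN i j)

attribute [local instance] Polynomial.algebra

/-- the model of `st` in polynomials over the algebra -/
noncomputable def polyModel (k : Type) [CommRing k] : Model st (A st k)[X] where
  f a := C ((A.model st k).f a)
  rel x y := by
    rw [← C_mul, (A.model st k).rel]
    cases h : st x y with
    | none => simp
    | some p => simp

/-- `A st k[X] → (A st k)[X]` -/
noncomputable def toPoly (k : Type) [CommRing k] : A st k[X] →ₐ[k[X]] (A st k)[X] :=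
  A.lift (polyModel st k)

theorem toPoly_mapCoeff (k : Type) [CommRing k] (r : A st k) :
    toPoly st k (A.mapCoeff st (C : k →+* k[X]) r) = C r := by
  induction r using A.induction_on with
  | hw w =>
    rw [A.mapCoeff_w]
    unfold toPoly
    rw [A.lift_w]
    induction w with
    | nil => simp
    | cons a w ih => rw [Model.ev_cons, ih, A.w_cons, C_mul]; rfl
  | hadd r s hr hs => rw [map_add, map_add, hr, hs, C_add]
  | hsmul c r hr =>
    rw [A.mapCoeff_smul, map_smul, hr, Algebra.smul_def, Polynomial.algebraMap_def,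
      coe_mapRingHom, Polynomial.map_C, ← C_mul, ← Algebra.smul_def]

theorem toPoly_X_smul (k : Type) [CommRing k] (r : A st k[X]) :
    toPoly st k ((X : k[X]) • r) = X * toPoly st k r := by
  rw [map_smul, Algebra.smul_def, Polynomial.algebraMap_def, coe_mapRingHom, Polynomial.map_X]

theorem mapCoeff_mem_Pd {k k' : Type} [CommRing k] [CommRing k'] (f : k →+* k') {d : ℕ}
    {r : A st k} (h : r ∈ Pd st k d) : A.mapCoeff st f r ∈ Pd st k' d := by
  induction h using Submodule.span_induction with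
  | mem r hr =>
    obtain ⟨w, h1, h2, rfl⟩ := hr
    rw [A.mapCoeff_w]
    exact Submodule.subset_span ⟨w, h1, h2, rfl⟩
  | zero => rw [map_zero]; exact Submodule.zero_mem _
  | add r s _ _ hr hs => rw [map_add]; exact Submodule.add_mem _ hr hs
  | smul c r _ hr => rw [A.mapCoeff_smul]; exact Submodule.smul_mem _ _ hr

theorem exists_mem_Pd (k : Type) [CommRing k] {r : A st k} (h : A.aug st k r = 0) :
    ∃ d, r ∈ Pd st k d := by
  have h' := A.mem_span_of_aug st k h
  clear h
  induction h' using Submodule.span_induction with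
  | mem r hr =>
    obtain ⟨w, hw, rfl⟩ := hr
    exact ⟨w.length, Submodule.subset_span ⟨w, List.length_pos_iff.2 hw, le_rfl, rfl⟩⟩
  | zero => exact ⟨0, Submodule.zero_mem _⟩
  | add r s _ _ hr hs =>
    obtain ⟨d, hd⟩ := hr
    obtain ⟨e, he⟩ := hs
    exact ⟨max d e, Submodule.add_mem _ (Pd_mono st k (le_max_left d e) hd)
      (Pd_mono st k (le_max_right d e) he)⟩
  | smul c r _ hr =>
    obtain ⟨d, hd⟩ := hr
    exact ⟨d, Submodule.smul_mem _ _ hd⟩

/-- The unit form of matrix nilpotence. -/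
def QAll : Prop :=
  ∀ (k : Type) [CommRing k] [CharP k 2] (l : ℕ) (B : Matrix (Fin l) (Fin l) (A st k)),
    (∀ i j, B i j ∈ A.deg st k 1 ⊔ A.deg st k 2) → IsUnit (1 - B)

/-- Unit form for the linear part, all index types. -/
theorem QAll.linear (hQ : QAll st) (k : Type) [CommRing k] [CharP k 2] (ι : Type) [Fintype ι]
    [DecidableEq ι] (B : Matrix ι ι (A st k)) (hB : ∀ i j, B i j ∈ Pd st k 1) :
    IsUnit (1 - B) := by
  refine isUnit_reindex (Fintype.equivFin ι) (hQ k _ _ fun i j => ?_)
  exact Submodule.mem_sup_left (Pd_one_le st k (hB _ _))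

/-- LINEARISATION: the unit form gives matrix nilpotence. -/
theorem nil_of_QAll [Fintype L] (hQ : QAll st) (l : ℕ)
    (B : Matrix (Fin l) (Fin l) (A st (ZMod 2)))
    (hB : ∀ i j, A.aug st (ZMod 2) (B i j) = 0) : IsNilpotent B := by
  choose d hd using fun i j => exists_mem_Pd st (ZMod 2) (hB i j)
  set D := Finset.univ.sup fun ij : Fin l × Fin l => d ij.1 ij.2 with hD
  have hB' : ∀ i j, B i j ∈ Pd st (ZMod 2) D := fun i j =>
    Pd_mono st _ (Finset.le_sup (f := fun ij : Fin l × Fin l => d ij.1 ij.2)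
      (Finset.mem_univ (i, j))) (hd i j)
  let B' : Matrix (Fin l) (Fin l) (A st (ZMod 2)[X]) := Matrix.of fun i j =>
    (X : (ZMod 2)[X]) • A.mapCoeff st (C : ZMod 2 →+* (ZMod 2)[X]) (B i j)
  have hunit : IsUnit (1 - B') := by
    refine isUnit_of_linear st (ZMod 2)[X] (fun ι _ _ B hB => hQ.linear st _ ι B hB) D
      (Fin l) B' fun i j => ?_
    exact Submodule.smul_mem _ _ (Pd_mono st _ (Nat.le_succ D) (mapCoeff_mem_Pd st _ (hB' i j)))
  have h2 : IsUnit ((toPoly st (ZMod 2)).mapMatrix (1 - B')) := hunit.map _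
  refine isNilpotent_of_isUnit_poly B ?_
  have e : (toPoly st (ZMod 2)).mapMatrix (1 - B') =
      1 - (Matrix.of fun i j => X * C (B i j) :
        Matrix (Fin l) (Fin l) (A st (ZMod 2))[X]) := by
    rw [map_sub, map_one]
    congr 1
    ext1 i j
    simp only [AlgHom.mapMatrix_apply, Matrix.map_apply, Matrix.of_apply, B']
    rw [toPoly_X_smul, toPoly_mapCoeff]
  rwa [e] at h2

/-- FINAL FORM of the reduction of S0266. -/
theorem S0266_of_QAll {L : Type} [Fintype L] (st : L → L → Option (L × L))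
    (hinf : ∀ n : ℕ, ∃ w : List L, n ≤ w.length ∧ S.of st w ≠ 0) (hQ : QAll st) :
    ∃ (R : Type) (_ : Ring R) (_ : Algebra (ZMod 2) R) (𝒜 : ℕ → Submodule (ZMod 2) R)
      (_ : GradedAlgebra 𝒜),
      Infinite R ∧ 𝒜 0 = 1 ∧
      (∃ (m : ℕ) (rel : Finset (FreeAlgebra (ZMod 2) (Fin m) × FreeAlgebra (ZMod 2) (Fin m))),
        Nonempty (R ≃ₐ[ZMod 2] RingQuot fun x y : FreeAlgebra (ZMod 2) (Fin m) => (x, y) ∈ rel)) ∧
      ∀ (l : ℕ) (A : Matrix (Fin l) (Fin l) R), (∀ i j, GradedRing.proj 𝒜 0 (A i j) = 0) →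
        IsNilpotent A :=
  S0266_of st hinf fun l B hB => nil_of_QAll st hQ l B hB

end Crest.Agent.R176.Gen
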