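import Crest.Agent.R176.QAlg206B
import Crest.Agent.R176.Gen.Lin206

/-!
Row 176: the bridge between `Gen.A st k` and `QAlg206.QA st k` (helper206).
-/

set_option autoImplicit false

namespace Crest.Agent.R176.Gen

open QAlg206 (QA x word gr)

variable {L : Type} (st : L → L → Option (L × L)) (k : Type) [CommRing k]

/-- the map `A → QA` -/
noncomputable def A.toQA : A st k →ₐ[k] QA st k := A.lift (modelQA k)

/-- the map `QA → A` -/
noncomputable def A.ofQA : QA st k →ₐ[k] A st k :=
  QAlg206.lift (A.model st k).f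
    (fun _ _ _ _ h => (A.model st k).rel_some h)
    (fun _ _ h => (A.model st k).rel_none h)

@[simp] theorem A.toQA_f (a : L) : A.toQA st k ((A.model st k).f a) = x st k a := by
  simp [A.toQA]
  try rfl

@[simp] theorem A.ofQA_x (a : L) : A.ofQA st k (x st k a) = (A.model st k).f a := by
  simp [A.ofQA]

/-- THE BRIDGE. -/
noncomputable def A.equivQA : A st k ≃ₐ[k] QA st k :=
  AlgEquiv.ofAlgHom (A.toQA st k) (A.ofQA st k)
    (by
      refine QAlg206.algHom_ext fun a => ?_
      simp)
    (by
      refine A.algHom_ext fun a => ?_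
      simp)

@[simp] theorem A.equivQA_f (a : L) : A.equivQA st k ((A.model st k).f a) = x st k a :=
  A.toQA_f st k a

@[simp] theorem A.equivQA_w (w : List L) : A.equivQA st k (A.w st k w) = word st k w := by
  induction w with
  | nil => simp
  | cons a w ih => simp [ih]

@[simp] theorem A.equivQA_symm_x (a : L) :
    (A.equivQA st k).symm (x st k a) = (A.model st k).f a :=
  A.ofQA_x st k a

@[simp] theorem A.equivQA_symm_word (w : List L) :
    (A.equivQA st k).symm (word st k w) = A.w st k w := by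
  rw [AlgEquiv.symm_apply_eq, A.equivQA_w]

theorem A.deg_map (n : ℕ) :
    (A.deg st k n).map (A.equivQA st k).toLinearMap = gr st k n := by
  unfold A.deg gr
  rw [Submodule.map_span]
  congr 1
  ext r
  constructor
  · rintro ⟨_, ⟨w, hw, rfl⟩, rfl⟩
    exact ⟨w, hw, (A.equivQA_w st k w).symm⟩
  · rintro ⟨w, hw, rfl⟩
    exact ⟨A.w st k w, ⟨w, hw, rfl⟩, A.equivQA_w st k w⟩

theorem A.equivQA_mem_gr {n : ℕ} {r : A st k} : A.equivQA st k r ∈ gr st k n ↔ r ∈ A.deg st k n := by
  rw [← A.deg_map]
  constructor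
  · rintro ⟨s, hs, he⟩
    rwa [← (A.equivQA st k).injective he]
  · intro h
    exact ⟨r, h, rfl⟩

/-- the unit form of matrix nilpotence, in `QA` -/
def QAllQA : Prop :=
  ∀ (k : Type) [CommRing k] [CharP k 2] (l : ℕ) (B : Matrix (Fin l) (Fin l) (QA st k)),
    (∀ i j, B i j ∈ gr st k 1 ⊔ gr st k 2) → IsUnit (1 - B)

theorem A.mem_sup_iff {r : A st k} :
    A.equivQA st k r ∈ gr st k 1 ⊔ gr st k 2 ↔ r ∈ A.deg st k 1 ⊔ A.deg st k 2 := by
  rw [← A.deg_map, ← A.deg_map, ← Submodule.map_sup]
  constructor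
  · rintro ⟨s, hs, he⟩
    rwa [← (A.equivQA st k).injective he]
  · intro h
    exact ⟨r, h, rfl⟩

/-- The two unit forms are equivalent. -/
theorem QAll_iff_QA : QAll st ↔ QAllQA st := by
  constructor
  · intro h k _ _ l B hB
    have h1 := h k l ((A.equivQA st k).symm.toAlgHom.mapMatrix B) (by
      intro i j
      rw [← A.mem_sup_iff]
      simpa using hB i j)
    have h2 := h1.map (A.equivQA st k).toAlgHom.mapMatrix
    rw [map_sub, map_one] at h2
    convert h2 using 2
    ext i j
    simp
  · intro h k _ _ l B hB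
    have h1 := h k l ((A.equivQA st k).toAlgHom.mapMatrix B) (by
      intro i j
      simpa using (A.mem_sup_iff st k).2 (hB i j))
    have h2 := h1.map (A.equivQA st k).symm.toAlgHom.mapMatrix
    rw [map_sub, map_one] at h2
    convert h2 using 2
    ext i j
    simp

theorem A.aug_equivQA (r : A st k) : QAlg206.aug st k (A.equivQA st k r) = A.aug st k r := by
  have : (QAlg206.aug st k).comp (A.equivQA st k).toAlgHom = A.aug st k := by
    refine A.algHom_ext fun a => ?_
    simp
  exact DFunLike.congr_fun this r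

/-- MATRIX NILPOTENCE in `QA step (ZMod 2)`, all index types. -/
theorem nilQA_of_QAll [Fintype L] (hQ : QAll st) {ι : Type*} [Fintype ι] [DecidableEq ι]
    (B : Matrix ι ι (QA st (ZMod 2)))
    (hB : ∀ i j, QAlg206.aug st (ZMod 2) (B i j) = 0) : IsNilpotent B := by
  let e := Fintype.equivFin ι
  have h1 := nil_of_QAll st hQ (Fintype.card ι)
    ((Matrix.reindexAlgEquiv (ZMod 2) (A st (ZMod 2)) e)
      ((A.equivQA st (ZMod 2)).symm.toAlgHom.mapMatrix B)) (by
      intro i j
      rw [← A.aug_equivQA]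
      simpa using hB (e.symm i) (e.symm j))
  obtain ⟨N, hN⟩ := h1
  refine ⟨N, ?_⟩
  rw [← map_pow] at hN
  have h3 := (EmbeddingLike.map_eq_zero_iff (f := Matrix.reindexAlgEquiv (ZMod 2)
    (A st (ZMod 2)) e)).1 hN
  have h4 := congrArg (A.equivQA st (ZMod 2)).toAlgHom.mapMatrix h3
  rw [map_pow, map_zero] at h4
  have h5 : (A.equivQA st (ZMod 2)).toAlgHom.mapMatrix
      ((A.equivQA st (ZMod 2)).symm.toAlgHom.mapMatrix B) = B := by
    ext1 i j
    simp
  rwa [h5] at h4

end Crest.Agent.R176.Gen
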