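import Crest.Agent.R176.Gen.Mon206

/-!
R176 part A, block G2 (helper206): the algebra `A st k`.

* `A.lift` universal property, `A.algHom_ext`, `A.span_w`, `A.induction_on`;
* `A.ofS : S st →*₀ A st k`, `A.basis` : basis of the nonzero elements of `S st`;
* `A.w_eq_zero_iff`, `A.w_eq_iff`;
* grading `A.deg` (`GradedAlgebra`), `A.deg_zero`, augmentation `A.aug`;
* `A.mapCoeff` change of coefficients; `A.mapS` linear map of a pointed map `S st → S st'`.
-/

set_option autoImplicit false

namespace Crest.Agent.R176.Gen

open FreeAlgebra
open scoped DirectSum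

variable {L : Type} (st : L → L → Option (L × L)) (k : Type) [CommRing k]

theorem A.mk_surjective : Function.Surjective (A.mk st k) :=
  RingQuot.mkAlgHom_surjective k (ARel st k)

@[simp] theorem A.w_nil : A.w st k [] = 1 := rfl
@[simp] theorem A.w_cons (a : L) (w : List L) :
    A.w st k (a :: w) = (A.model st k).f a * A.w st k w := Model.ev_cons _ a w
theorem A.w_append (u v : List L) : A.w st k (u ++ v) = A.w st k u * A.w st k v :=
  Model.ev_append _ u v
theorem A.w_singleton (a : L) : A.w st k [a] = (A.model st k).f a := by simp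

variable {st k}

/-- Universal property of the algebra. -/
def A.lift {B : Type*} [Semiring B] [Algebra k B] (m : Model st B) : A st k →ₐ[k] B :=
  RingQuot.liftAlgHom k ⟨FreeAlgebra.lift k m.f, by
    intro u v h
    cases h with
    | some x y p h => simp [m.rel_some h]
    | none x y h => simp [m.rel_none h]⟩

theorem A.lift_mk {B : Type*} [Semiring B] [Algebra k B] (m : Model st B) (f : FreeAlgebra k L) :
    A.lift m (A.mk st k f) = FreeAlgebra.lift k m.f f := by
  unfold A.lift A.mk
  exact RingQuot.liftAlgHom_mkAlgHom_apply k _ _ _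

@[simp] theorem A.lift_f {B : Type*} [Semiring B] [Algebra k B] (m : Model st B) (a : L) :
    A.lift m ((A.model st k).f a) = m.f a := by
  show A.lift m (A.mk st k (ι k a)) = _
  rw [A.lift_mk]; simp

@[simp] theorem A.lift_w {B : Type*} [Semiring B] [Algebra k B] (m : Model st B) (w : List L) :
    A.lift m (A.w st k w) = m.ev w := by
  induction w with
  | nil => simp
  | cons a w ih => rw [A.w_cons, map_mul, ih, A.lift_f, Model.ev_cons]

theorem A.algHom_ext {B : Type*} [Semiring B] [Algebra k B] {f g : A st k →ₐ[k] B}
    (h : ∀ a, f ((A.model st k).f a) = g ((A.model st k).f a)) : f = g := by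
  refine RingQuot.ringQuot_ext' k _ _ ?_
  refine FreeAlgebra.hom_ext ?_
  funext a
  exact h a

variable (st k)

/-- Words span. -/
theorem A.span_w : Submodule.span k (Set.range (A.w st k)) = ⊤ := by
  rw [eq_top_iff]
  rintro r -
  obtain ⟨f, rfl⟩ := A.mk_surjective st k r
  induction f using FreeAlgebra.induction with
  | grade0 c =>
    rw [AlgHom.commutes, Algebra.algebraMap_eq_smul_one]
    exact Submodule.smul_mem _ _ (Submodule.subset_span ⟨[], rfl⟩)
  | grade1 a => exact Submodule.subset_span ⟨[a], by rw [A.w_singleton]; rfl⟩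
  | mul f g hf hg =>
    rw [map_mul]
    have := Submodule.mul_mem_mul hf hg
    rw [Submodule.span_mul_span] at this
    refine Submodule.span_mono ?_ this
    rintro _ ⟨_, ⟨p, rfl⟩, _, ⟨q, rfl⟩, rfl⟩
    exact ⟨p ++ q, by simp [A.w_append]⟩
  | add f g hf hg => rw [map_add]; exact Submodule.add_mem _ hf hg

variable {st k} in
theorem A.induction_on {P : A st k → Prop} (r : A st k)
    (hw : ∀ w, P (A.w st k w)) (hadd : ∀ r s, P r → P s → P (r + s))
    (hsmul : ∀ (c : k) r, P r → P (c • r)) : P r := by
  have hr : r ∈ Submodule.span k (Set.range (A.w st k)) := by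
    rw [A.span_w]; trivial
  induction hr using Submodule.span_induction with
  | mem r hr => obtain ⟨w, rfl⟩ := hr; exact hw w
  | zero => simpa using hsmul 0 _ (hw [])
  | add r s _ _ hr hs => exact hadd r s hr hs
  | smul c r _ hr => exact hsmul c r hr

/-! ### the basis -/

/-- elements of `S` in the algebra -/
def A.ofS : S st →*₀ A st k := S.lift (A.model st k)

@[simp] theorem A.ofS_of (w : List L) : A.ofS st k (S.of st w) = A.w st k w :=
  S.lift_of _ w

/-- Nonzero elements of `S`. -/
abbrev NZ : Type := {s : S st // s ≠ 0}

open Classical in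
/-- `single s` with `0` killed -/
noncomputable def sg (s : S st) : NZ st →₀ k :=
  if h : s = 0 then 0 else Finsupp.single ⟨s, h⟩ 1

@[simp] theorem sg_zero : sg st k 0 = 0 := by simp [sg]
theorem sg_of_ne {s : S st} (h : s ≠ 0) : sg st k s = Finsupp.single ⟨s, h⟩ 1 := by
  simp [sg, h]

theorem fin_ext {N : Type*} [AddCommGroup N] [Module k N] {f g : (NZ st →₀ k) →ₗ[k] N}
    (h : ∀ s : S st, f (sg st k s) = g (sg st k s)) : f = g := by
  refine Finsupp.lhom_ext' fun q => LinearMap.ext_ring ?_
  obtain ⟨s, hs⟩ := q
  have e : Finsupp.lsingle (R := k) (⟨s, hs⟩ : NZ st) (1 : k) = sg st k s := by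
    rw [sg_of_ne st k hs]; rfl
  rw [LinearMap.comp_apply, LinearMap.comp_apply, e]
  exact h s

/-- linear extension of a pointed map out of `S` -/
noncomputable def ext {N : Type*} [AddCommGroup N] [Module k N] (φ : S st → N) :
    (NZ st →₀ k) →ₗ[k] N :=
  Finsupp.linearCombination k fun q : NZ st => φ q.1

theorem ext_sg {N : Type*} [AddCommGroup N] [Module k N] (φ : S st → N) (h0 : φ 0 = 0)
    (s : S st) : ext st k φ (sg st k s) = φ s := by
  by_cases h : s = 0
  · subst h; simp [h0]
  · rw [sg_of_ne st k h]
    unfold ext
    rw [Finsupp.linearCombination_single, one_smul]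

/-- The action of `S` on the free module on its nonzero elements. -/
noncomputable def act (s : S st) : Module.End k (NZ st →₀ k) :=
  ext st k fun t => sg st k (s * t)

theorem act_sg (s t : S st) : act st k s (sg st k t) = sg st k (s * t) :=
  ext_sg st k (fun t => sg st k (s * t)) (by simp) t

/-- the regular model -/
noncomputable def regModel : Model st (Module.End k (NZ st →₀ k)) where
  f a := act st k (S.of st [a])
  rel x y := by
    cases h : st x y with
    | none =>
      refine fin_ext st k fun s => ?_
      rw [Module.End.mul_apply, act_sg, act_sg, LinearMap.zero_apply, ← mul_assoc,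
        ← S.of_append, show [x] ++ [y] = [x, y] from rfl, S.rel_none st h, zero_mul, sg_zero]
    | some p =>
      refine fin_ext st k fun s => ?_
      dsimp only
      rw [Module.End.mul_apply, Module.End.mul_apply, act_sg, act_sg, act_sg, act_sg,
        ← mul_assoc, ← mul_assoc, ← S.of_append, ← S.of_append,
        show [x] ++ [y] = [x, y] from rfl, show [p.1] ++ [p.2] = [p.1, p.2] from rfl,
        S.rel_some st h]

theorem regModel_ev (w : List L) (s : S st) :
    (regModel st k).ev w (sg st k s) = sg st k (S.of st w * s) := by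
  induction w with
  | nil => rw [Model.ev_nil, S.of_nil, one_mul]; rfl
  | cons a w ih =>
    rw [Model.ev_cons, Module.End.mul_apply, ih, S.of_cons, mul_assoc]
    exact act_sg st k _ _

/-- coordinates in the basis of nonzero elements of `S` -/
noncomputable def A.coord : A st k →ₗ[k] (NZ st →₀ k) :=
  (LinearMap.applyₗ (sg st k 1)).comp (A.lift (regModel st k)).toLinearMap

@[simp] theorem A.coord_w (w : List L) :
    A.coord st k (A.w st k w) = sg st k (S.of st w) := by
  simp [A.coord, regModel_ev]

@[simp] theorem A.coord_ofS (s : S st) :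
    A.coord st k (A.ofS st k s) = sg st k s := by
  rcases S.cases st s with rfl | ⟨w, rfl⟩
  · simp
  · simp

/-- The linear equivalence with the free module on nonzero elements of `S`. -/
noncomputable def A.linEquiv : A st k ≃ₗ[k] (NZ st →₀ k) :=
  LinearEquiv.ofLinearMap (A.coord st k) (ext st k (A.ofS st k))
    (by
      refine fin_ext st k fun s => ?_
      rw [LinearMap.comp_apply, ext_sg st k _ (map_zero _), A.coord_ofS]; rfl)
    (by
      refine LinearMap.ext fun r => ?_
      simp only [LinearMap.comp_apply, LinearMap.id_apply]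
      induction r using A.induction_on with
      | hw w => rw [A.coord_w, ext_sg st k _ (map_zero _), A.ofS_of]
      | hadd r s hr hs => rw [map_add, map_add, hr, hs]
      | hsmul c r hr => rw [map_smul, map_smul, hr])

/-- The basis of nonzero elements of `S`. -/
noncomputable def A.basis : Module.Basis (NZ st) k (A st k) := ⟨A.linEquiv st k⟩

theorem A.linEquiv_ofS (s : S st) : A.linEquiv st k (A.ofS st k s) = sg st k s :=
  A.coord_ofS st k s

theorem A.basis_apply (s : NZ st) : A.basis st k s = A.ofS st k s.1 := by
  have : A.basis st k s = (A.linEquiv st k).symm (Finsupp.single s 1) := rfl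
  rw [this, LinearEquiv.symm_apply_eq, A.linEquiv_ofS, sg_of_ne st k s.2]

theorem A.ofS_ne_zero [Nontrivial k] {s : S st} (h : s ≠ 0) : A.ofS st k s ≠ 0 := by
  intro e
  have := A.coord_ofS st k s
  rw [e, map_zero, sg_of_ne st k h] at this
  exact one_ne_zero (Finsupp.single_eq_zero.1 this.symm)

theorem A.ofS_injective [Nontrivial k] : Function.Injective (A.ofS st k) := by
  intro s t e
  by_cases hs : s = 0
  · subst hs
    rw [map_zero] at e
    by_contra ht
    exact A.ofS_ne_zero st k (s := t) (fun h => ht h.symm) e.symm
  · by_cases ht : t = 0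
    · subst ht
      rw [map_zero] at e
      exact absurd e (A.ofS_ne_zero st k hs)
    · have := congrArg (A.coord st k) e
      rw [A.coord_ofS, A.coord_ofS, sg_of_ne st k hs, sg_of_ne st k ht,
        Finsupp.single_left_inj one_ne_zero] at this
      exact congrArg Subtype.val this

theorem A.w_eq_iff [Nontrivial k] {u v : List L} :
    A.w st k u = A.w st k v ↔ S.of st u = S.of st v := by
  rw [← A.ofS_of, ← A.ofS_of, (A.ofS_injective st k).eq_iff]

theorem A.w_eq_zero_iff [Nontrivial k] {u : List L} :
    A.w st k u = 0 ↔ S.of st u = 0 := by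
  rw [← A.ofS_of, ← map_zero (A.ofS st k), (A.ofS_injective st k).eq_iff]

theorem A.w_eq_zero {u : List L} (h : S.of st u = 0) : A.w st k u = 0 := by
  rw [← A.ofS_of, h, map_zero]

theorem A.w_eq_w {u v : List L} (h : S.of st u = S.of st v) : A.w st k u = A.w st k v := by
  rw [← A.ofS_of, ← A.ofS_of, h]

/-- linear map of a pointed map out of `S` -/
noncomputable def A.extS {N : Type*} [AddCommGroup N] [Module k N] (φ : S st → N) :
    A st k →ₗ[k] N := (ext st k φ).comp (A.linEquiv st k).toLinearMap

theorem A.extS_ofS {N : Type*} [AddCommGroup N] [Module k N] (φ : S st → N) (h0 : φ 0 = 0)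
    (s : S st) : A.extS st k φ (A.ofS st k s) = φ s := by
  show ext st k φ (A.linEquiv st k (A.ofS st k s)) = φ s
  rw [A.linEquiv_ofS, ext_sg st k φ h0]

theorem A.extS_w {N : Type*} [AddCommGroup N] [Module k N] (φ : S st → N) (h0 : φ 0 = 0)
    (w : List L) : A.extS st k φ (A.w st k w) = φ (S.of st w) := by
  rw [← A.ofS_of, A.extS_ofS st k φ h0]

/-! ### Grading -/

theorem A.w_mem_deg {w : List L} {n : ℕ} (h : w.length = n) : A.w st k w ∈ A.deg st k n :=
  Submodule.subset_span ⟨w, h, rfl⟩

theorem A.f_mem_deg (a : L) : (A.model st k).f a ∈ A.deg st k 1 := by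
  have := A.w_mem_deg st k (w := [a]) (n := 1) rfl
  simpa using this

instance A.gradedMonoid : SetLike.GradedMonoid (A.deg st k) where
  one_mem := A.w_mem_deg st k (w := []) (n := 0) rfl
  mul_mem := by
    intro i j u v hu hv
    have := Submodule.mul_mem_mul hu hv
    unfold A.deg at this
    rw [Submodule.span_mul_span] at this
    refine Submodule.span_mono ?_ this
    rintro _ ⟨_, ⟨p, hp, rfl⟩, _, ⟨q, hq, rfl⟩, rfl⟩
    exact ⟨p ++ q, by simp [hp, hq], (A.w_append st k p q).symm⟩

/-- the model in the direct sum of the degrees -/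
def A.decModel : Model st (⨁ n, A.deg st k n) where
  f a := DirectSum.of (fun n => A.deg st k n) 1 ⟨(A.model st k).f a, A.f_mem_deg st k a⟩
  rel x y := by
    cases h : st x y with
    | none =>
      rw [DirectSum.of_mul_of]
      have : (GradedMonoid.GMul.mul (A := fun n => A.deg st k n)
          (⟨(A.model st k).f x, A.f_mem_deg st k x⟩ : A.deg st k 1)
          (⟨(A.model st k).f y, A.f_mem_deg st k y⟩ : A.deg st k 1)) = 0 :=
        Subtype.ext ((A.model st k).rel_none h)
      rw [this, map_zero]
    | some p =>
      dsimp only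
      rw [DirectSum.of_mul_of, DirectSum.of_mul_of]
      exact congrArg _ (Subtype.ext ((A.model st k).rel_some h))

theorem A.dec_w (w : List L) :
    A.lift (A.decModel st k) (A.w st k w) =
      DirectSum.of (fun n => A.deg st k n) w.length ⟨A.w st k w, A.w_mem_deg st k rfl⟩ := by
  induction w with
  | nil =>
    have e : A.lift (A.decModel st k) (A.w st k []) = 1 := by rw [A.w_nil, map_one]
    rw [e]; rfl
  | cons a w ih =>
    have e : A.lift (A.decModel st k) (A.w st k (a :: w)) =
        A.lift (A.decModel st k) ((A.model st k).f a) *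
          A.lift (A.decModel st k) (A.w st k w) := by rw [A.w_cons, map_mul]
    rw [e, ih, A.lift_f]
    unfold A.decModel
    dsimp only
    rw [DirectSum.of_mul_of]
    exact DirectSum.of_eq_of_gradedMonoid_eq
      (Sigma.subtype_ext (add_comm _ _) (A.w_cons st k a w).symm)

noncomputable instance A.gradedAlgebra : GradedAlgebra (A.deg st k) :=
  GradedAlgebra.ofAlgHom _ (A.lift (A.decModel st k))
    (by
      refine A.algHom_ext fun a => ?_
      rw [AlgHom.comp_apply, A.lift_f]
      unfold A.decModel
      rw [DirectSum.coeAlgHom_of, AlgHom.id_apply])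
    (by
      rintro i ⟨r, hr⟩
      dsimp only
      induction hr using Submodule.span_induction with
      | mem r h =>
        obtain ⟨w, hw, rfl⟩ := h
        subst hw
        exact A.dec_w st k w
      | zero => rw [map_zero]; exact (map_zero _).symm
      | add r s hr hs h1 h2 => rw [map_add, h1, h2, ← map_add]; rfl
      | smul c r hr h1 =>
        rw [map_smul, h1]
        rw [← DirectSum.lof_eq_of k, ← DirectSum.lof_eq_of k, ← map_smul]; rfl)

theorem A.deg_zero : A.deg st k 0 = 1 := by
  rw [Submodule.one_eq_span]
  unfold A.deg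
  congr 1
  ext r
  constructor
  · rintro ⟨w, hw, rfl⟩
    rw [List.length_eq_zero_iff] at hw
    subst hw; simp
  · rintro rfl
    exact ⟨[], rfl, rfl⟩

theorem A.proj_w (n : ℕ) (w : List L) :
    GradedRing.proj (A.deg st k) n (A.w st k w) = if w.length = n then A.w st k w else 0 := by
  split_ifs with h
  · exact DirectSum.decompose_of_mem_same _ (A.w_mem_deg st k h)
  · exact DirectSum.decompose_of_mem_ne _ (A.w_mem_deg st k rfl) h

/-- the zero model -/
def zeroModel : Model st k where
  f _ := 0
  rel x y := by cases h : st x y <;> simp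

/-- The augmentation. -/
def A.aug : A st k →ₐ[k] k := A.lift (zeroModel st k)

@[simp] theorem A.aug_f (a : L) : A.aug st k ((A.model st k).f a) = 0 := by
  unfold A.aug; rw [A.lift_f]; rfl

theorem A.aug_w (w : List L) : A.aug st k (A.w st k w) = if w = [] then 1 else 0 := by
  cases w with
  | nil => simp
  | cons a w => simp

theorem A.proj_zero_eq (r : A st k) :
    GradedRing.proj (A.deg st k) 0 r = algebraMap k _ (A.aug st k r) := by
  induction r using A.induction_on with
  | hw w =>
    rw [A.proj_w, A.aug_w]
    cases w with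
    | nil => simp
    | cons a w => simp
  | hadd r s hr hs => rw [map_add, map_add, map_add, hr, hs]
  | hsmul c r hr =>
    have e : GradedRing.proj (A.deg st k) 0 (c • r) = c • GradedRing.proj (A.deg st k) 0 r := by
      rw [GradedRing.proj_apply, GradedRing.proj_apply, DirectSum.decompose_smul,
        DirectSum.smul_apply]
      rfl
    rw [e, hr, map_smul, smul_eq_mul, map_mul, ← Algebra.smul_def]

/-- Elements of augmentation zero are spanned by nonempty words. -/
theorem A.mem_span_of_aug {r : A st k} (h : A.aug st k r = 0) :
    r ∈ Submodule.span k {r | ∃ w : List L, w ≠ [] ∧ A.w st k w = r} := by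
  have key : ∀ r : A st k, r - algebraMap k _ (A.aug st k r) ∈
      Submodule.span k {r | ∃ w : List L, w ≠ [] ∧ A.w st k w = r} := by
    intro r
    induction r using A.induction_on with
    | hw w =>
      rw [A.aug_w]
      split_ifs with hw
      · subst hw; simp
      · rw [map_zero, sub_zero]
        exact Submodule.subset_span ⟨w, hw, rfl⟩
    | hadd r s hr hs =>
      have e : r + s - algebraMap k _ (A.aug st k (r + s)) =
          (r - algebraMap k _ (A.aug st k r)) + (s - algebraMap k _ (A.aug st k s)) := by
        rw [map_add, map_add]; abel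
      rw [e]; exact Submodule.add_mem _ hr hs
    | hsmul c r hr =>
      have e : c • r - algebraMap k _ (A.aug st k (c • r)) =
          c • (r - algebraMap k _ (A.aug st k r)) := by
        rw [map_smul, smul_eq_mul, map_mul, smul_sub, Algebra.smul_def c (algebraMap k _ _)]
      rw [e]; exact Submodule.smul_mem _ _ hr
  have := key r
  rwa [h, map_zero, sub_zero] at this

theorem A.algebraMap_injective [Nontrivial k] : Function.Injective (algebraMap k (A st k)) := by
  intro a b h
  have := congrArg (A.aug st k) h
  simpa using this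

instance A.nontrivial [Nontrivial k] : Nontrivial (A st k) :=
  (A.algebraMap_injective st k).nontrivial

theorem A.proj_zero_iff [Nontrivial k] (r : A st k) :
    GradedRing.proj (A.deg st k) 0 r = 0 ↔ A.aug st k r = 0 := by
  rw [A.proj_zero_eq]
  refine ⟨fun h => A.algebraMap_injective st k (by rw [h, map_zero]),
    fun h => by rw [h, map_zero]⟩

/-! ### Change of coefficients -/

section coeff

variable {k} {k' : Type} [CommRing k'] (f : k →+* k')

/-- Change of coefficients. -/
def A.mapCoeff : A st k →+* A st k' :=
  letI : Algebra k (A st k') := Algebra.compHom _ f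
  (A.lift (k := k) (A.model st k') : A st k →ₐ[k] A st k').toRingHom

@[simp] theorem A.mapCoeff_f (a : L) :
    A.mapCoeff st f ((A.model st k).f a) = (A.model st k').f a := by
  let _ : Algebra k (A st k') := Algebra.compHom _ f
  exact A.lift_f (k := k) (A.model st k') a

@[simp] theorem A.mapCoeff_algebraMap (c : k) :
    A.mapCoeff st f (algebraMap k _ c) = algebraMap k' _ (f c) := by
  let _ : Algebra k (A st k') := Algebra.compHom _ f
  exact AlgHom.commutes (A.lift (k := k) (A.model st k') : A st k →ₐ[k] A st k') c

theorem A.mapCoeff_smul (c : k) (r : A st k) :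
    A.mapCoeff st f (c • r) = f c • A.mapCoeff st f r := by
  rw [Algebra.smul_def, map_mul, A.mapCoeff_algebraMap, ← Algebra.smul_def]

@[simp] theorem A.mapCoeff_w (w : List L) :
    A.mapCoeff st f (A.w st k w) = A.w st k' w := by
  induction w with
  | nil => simp
  | cons a w ih => rw [A.w_cons, map_mul, ih, A.mapCoeff_f, A.w_cons]

end coeff

end Crest.Agent.R176.Gen
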