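import Mathlib

/-!
# Row 176, part A: general theory of quadratic "word = word or 0" rewriting (helper655)

`st : L → L → Option (L × L)` : the product `x y` is `0` (`none`) or equals `x' y'`.

* `Model st M` : letters in a monoid with zero `M` satisfying the relations, `Model.ev` on words;
* `S st` : the universal monoid with zero, `S.of : List L → S st`;
* `A st k` : the algebra over a commutative ring `k`, `A.w : List L → A st k` words.
-/

set_option autoImplicit false

namespace Crest.Agent.R176.Gen

/-- letters of a monoid with zero satisfying the relations of `st` -/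
structure Model {L : Type} (st : L → L → Option (L × L)) (M : Type*) [MonoidWithZero M] where
  f : L → M
  rel : ∀ x y, f x * f y = match st x y with
    | none => 0
    | some p => f p.1 * f p.2

namespace Model

variable {L : Type} {st : L → L → Option (L × L)} {M : Type*} [MonoidWithZero M]

/-- value of a word -/
def ev (m : Model st M) (w : List L) : M := (w.map m.f).prod

variable (m : Model st M)

@[simp] theorem ev_nil : m.ev [] = 1 := rfl

@[simp] theorem ev_cons (x : L) (w : List L) : m.ev (x :: w) = m.f x * m.ev w := by
  simp [ev]

theorem ev_append (u v : List L) : m.ev (u ++ v) = m.ev u * m.ev v := by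
  simp [ev]

theorem ev_singleton (x : L) : m.ev [x] = m.f x := by simp

theorem rel_some {x y : L} {p : L × L} (h : st x y = some p) : m.f x * m.f y = m.f p.1 * m.f p.2 := by
  rw [m.rel, h]

theorem rel_none {x y : L} (h : st x y = none) : m.f x * m.f y = 0 := by
  rw [m.rel, h]

/-- replace two adjacent letters -/
theorem ev_some {x y : L} {p : L × L} (h : st x y = some p) (u v : List L) :
    m.ev (u ++ x :: y :: v) = m.ev (u ++ p.1 :: p.2 :: v) := by
  simp only [ev_append, ev_cons, ← mul_assoc]
  rw [mul_assoc (m.ev u), m.rel_some h, ← mul_assoc]

theorem ev_none {x y : L} (h : st x y = none) (u v : List L) :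
    m.ev (u ++ x :: y :: v) = 0 := by
  simp only [ev_append, ev_cons]
  rw [← mul_assoc (m.f x), m.rel_none h, zero_mul, mul_zero]

theorem ev_eq_zero_left {u : List L} (h : m.ev u = 0) (v : List L) : m.ev (u ++ v) = 0 := by
  rw [ev_append, h, zero_mul]

theorem ev_eq_zero_right {v : List L} (h : m.ev v = 0) (u : List L) : m.ev (u ++ v) = 0 := by
  rw [ev_append, h, mul_zero]

theorem ev_congr {u u' : List L} (h : m.ev u = m.ev u') (a b : List L) :
    m.ev (a ++ u ++ b) = m.ev (a ++ u' ++ b) := by
  simp only [ev_append, h]

end Model

/-! ### the universal monoid with zero -/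

section S
variable {L : Type} (st : L → L → Option (L × L))

/-- the generating relation on `WithZero (FreeMonoid L)` -/
inductive SRel : WithZero (FreeMonoid L) → WithZero (FreeMonoid L) → Prop
  | some (x y : L) (p : L × L) (h : st x y = some p) :
      SRel ((FreeMonoid.of x * FreeMonoid.of y : FreeMonoid L) : WithZero (FreeMonoid L))
        ((FreeMonoid.of p.1 * FreeMonoid.of p.2 : FreeMonoid L) : WithZero (FreeMonoid L))
  | none (x y : L) (h : st x y = none) :
      SRel ((FreeMonoid.of x * FreeMonoid.of y : FreeMonoid L) : WithZero (FreeMonoid L)) 0

/-- the congruence -/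
def SCon : Con (WithZero (FreeMonoid L)) := conGen (SRel st)

/-- the universal monoid with zero of the relations `st` -/
def S : Type := (SCon st).Quotient

instance : Monoid (S st) := inferInstanceAs (Monoid (SCon st).Quotient)

instance : MonoidWithZero (S st) where
  zero := ((0 : WithZero (FreeMonoid L)) : (SCon st).Quotient)
  zero_mul a := by
    induction a using Con.induction_on with
    | H a =>
      show (((0 : WithZero (FreeMonoid L)) * a : WithZero (FreeMonoid L)) : (SCon st).Quotient) = _
      rw [zero_mul]; rfl
  mul_zero a := by
    induction a using Con.induction_on with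
    | H a =>
      show ((a * (0 : WithZero (FreeMonoid L)) : WithZero (FreeMonoid L)) : (SCon st).Quotient) = _
      rw [mul_zero]; rfl

/-- the quotient map -/
def S.mk : WithZero (FreeMonoid L) →* S st := (SCon st).mk'

/-- the class of a word -/
def S.of (w : List L) : S st := S.mk st ((FreeMonoid.ofList w : FreeMonoid L) : WithZero (FreeMonoid L))

end S

/-! ### the algebra -/

section A
variable {L : Type} (st : L → L → Option (L × L)) (k : Type) [CommRing k]

/-- the relations of the algebra -/
inductive ARel : FreeAlgebra k L → FreeAlgebra k L → Prop
  | some (x y : L) (p : L × L) (h : st x y = some p) :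
      ARel (FreeAlgebra.ι k x * FreeAlgebra.ι k y) (FreeAlgebra.ι k p.1 * FreeAlgebra.ι k p.2)
  | none (x y : L) (h : st x y = none) : ARel (FreeAlgebra.ι k x * FreeAlgebra.ι k y) 0

/-- the algebra with letters `L` and relations `x y = st x y` -/
def A : Type := RingQuot (ARel st k)

instance : Ring (A st k) := inferInstanceAs (Ring (RingQuot (ARel st k)))
instance : Algebra k (A st k) := inferInstanceAs (Algebra k (RingQuot (ARel st k)))

/-- the quotient map -/
def A.mk : FreeAlgebra k L →ₐ[k] A st k := RingQuot.mkAlgHom k (ARel st k)

/-- the letters form a model -/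
def A.model : Model st (A st k) where
  f x := A.mk st k (FreeAlgebra.ι k x)
  rel x y := by
    rw [← map_mul]
    cases h : st x y with
    | none =>
      rw [show A.mk st k (FreeAlgebra.ι k x * FreeAlgebra.ι k y) = A.mk st k 0 from
        RingQuot.mkAlgHom_rel k (ARel.none x y h), map_zero]
    | some p =>
      rw [show A.mk st k (FreeAlgebra.ι k x * FreeAlgebra.ι k y) =
        A.mk st k (FreeAlgebra.ι k p.1 * FreeAlgebra.ι k p.2) from
        RingQuot.mkAlgHom_rel k (ARel.some x y p h), map_mul]

/-- the word `w` in the algebra -/
def A.w (w : List L) : A st k := (A.model st k).ev w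

/-- the component of degree `n`: span of the words of length `n` -/
def A.deg (n : ℕ) : Submodule k (A st k) := Submodule.span k {a | ∃ w : List L, w.length = n ∧ a = A.w st k w}

end A

end Crest.Agent.R176.Gen
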