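import Mathlib

/-!
R176 part A, block Q1/7a (helper206): nilpotence of matrices over a commutative ring of
characteristic two whose entries lie in an ideal of square-zero elements, and over commuting
square-zero elements of a noncommutative algebra.
-/

set_option autoImplicit false

namespace Crest.Agent.R176.Gen

open Polynomial

/-- Cayley–Hamilton + Frobenius. -/
theorem matrix_pow_two_mul_eq_zero {C : Type*} [CommRing C] [CharP C 2] (I : Ideal C)
    (hI : ∀ x ∈ I, x ^ 2 = 0) {n : Type*} [Fintype n] [DecidableEq n] (N : Matrix n n C)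
    (hN : ∀ i j, N i j ∈ I) : N ^ (2 * Fintype.card n) = 0 := by
  cases subsingleton_or_nontrivial C with
  | inl h => exact Subsingleton.elim _ _
  | inr hnt =>
  -- the polynomial `charpoly - X^l`
  set l := Fintype.card n with hl
  set p : C[X] := N.charpoly - X ^ l with hp
  have hcoef : ∀ i, p.coeff i ∈ I := by
    intro i
    have h1 : (N.charpoly).map (Ideal.Quotient.mk I) = X ^ l := by
      rw [← Matrix.charpoly_map]
      have : N.map (Ideal.Quotient.mk I) = 0 := by
        ext i j
        simpa [Ideal.Quotient.eq_zero_iff_mem] using hN i j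
      rw [this, Matrix.charpoly_zero]
    have h2 : p.map (Ideal.Quotient.mk I) = 0 := by
      rw [hp, Polynomial.map_sub, h1, Polynomial.map_pow, Polynomial.map_X, sub_self]
    have h3 := congrArg (fun q => q.coeff i) h2
    simp only [Polynomial.coeff_map, Polynomial.coeff_zero] at h3
    exact Ideal.Quotient.eq_zero_iff_mem.1 h3
  have hp2 : p ^ 2 = 0 := by
    have : Fact (Nat.Prime 2) := ⟨Nat.prime_two⟩
    rw [p.as_sum_range_C_mul_X_pow, sum_pow_char]
    refine Finset.sum_eq_zero fun i _ => ?_
    rw [mul_pow, ← C_pow, hI _ (hcoef i), C_0, zero_mul]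
  have h4 : N ^ l = - aeval N p := by
    have h5 := Matrix.aeval_self_charpoly N
    have h6 : N.charpoly = p + X ^ l := by rw [hp]; ring
    rw [h6, map_add, map_pow, aeval_X] at h5
    exact eq_neg_of_add_eq_zero_right h5
  calc N ^ (2 * l) = (N ^ l) ^ 2 := by rw [← pow_mul, mul_comm]
    _ = aeval N (p ^ 2) := by rw [h4, neg_sq, map_pow]
    _ = 0 := by rw [hp2, map_zero]

/-- Matrices with entries in the non-unital algebra generated by commuting square-zero elements. -/
theorem matrix_pow_eq_zero_of_commuting {k : Type*} [CommRing k] [CharP k 2] {R : Type*} [Ring R]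
    [Algebra k R] (s : Set R) (hc : ∀ x ∈ s, ∀ y ∈ s, x * y = y * x) (hs : ∀ x ∈ s, x * x = 0)
    {n : Type*} [Fintype n] [DecidableEq n] (N : Matrix n n R)
    (hN : ∀ i j, N i j ∈ Submodule.span k {r | ∃ w : List R, w ≠ [] ∧ (∀ x ∈ w, x ∈ s) ∧
      w.prod = r}) : N ^ (2 * Fintype.card n) = 0 := by
  cases subsingleton_or_nontrivial R with
  | inl h => exact Subsingleton.elim _ _
  | inr hnt =>
  let _ : CommRing (Algebra.adjoin k s) := Algebra.adjoinCommRingOfComm k hc
  -- the algebra has characteristic two
  have h2 : CharP (Algebra.adjoin k s) 2 := by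
    refine CharTwo.of_one_ne_zero_of_two_eq_zero one_ne_zero ?_
    refine Subtype.ext ?_
    show (2 : R) = 0
    have : (algebraMap k R) 2 = 0 := by
      rw [CharTwo.two_eq_zero, map_zero]
    rwa [map_ofNat] at this
  let I : Ideal (Algebra.adjoin k s) :=
    Ideal.span {x | (x : R) ∈ s}
  have hI : ∀ x ∈ I, x ^ 2 = 0 := by
    intro x hx
    induction hx using Submodule.span_induction with
    | mem x hx =>
      refine Subtype.ext ?_
      show ((x : R)) ^ 2 = 0
      rw [pow_two]; exact hs _ hx
    | zero => simp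
    | add x y _ _ hx hy =>
      rw [CharTwo.add_sq, hx, hy, add_zero]
    | smul a x _ hx => rw [smul_eq_mul, mul_pow, hx, mul_zero]
  have hmem : ∀ r ∈ Submodule.span k {r | ∃ w : List R, w ≠ [] ∧ (∀ x ∈ w, x ∈ s) ∧
      w.prod = r}, ∃ y ∈ I, (y : R) = r := by
    intro r hr
    induction hr using Submodule.span_induction with
    | mem r hr =>
      obtain ⟨w, hw, hws, rfl⟩ := hr
      obtain ⟨a, w, rfl⟩ := List.exists_cons_of_ne_nil hw
      have ha : a ∈ s := hws a (by simp)
      have hw' : w.prod ∈ Algebra.adjoin k s :=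
        Subalgebra.list_prod_mem _ fun x hx => Algebra.subset_adjoin (hws x (by simp [hx]))
      refine ⟨⟨a, Algebra.subset_adjoin ha⟩ * ⟨w.prod, hw'⟩, ?_, ?_⟩
      · exact Ideal.mul_mem_right _ _ (Ideal.subset_span ha)
      · show a * w.prod = _
        rw [List.prod_cons]
    | zero => exact ⟨0, I.zero_mem, rfl⟩
    | add r t _ _ hr ht =>
      obtain ⟨y, hy, rfl⟩ := hr
      obtain ⟨z, hz, rfl⟩ := ht
      exact ⟨y + z, I.add_mem hy hz, rfl⟩
    | smul c r _ hr =>
      obtain ⟨y, hy, rfl⟩ := hr
      refine ⟨c • y, ?_, rfl⟩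
      have : c • y = (algebraMap k (Algebra.adjoin k s) c) * y := Algebra.smul_def c y
      rw [this]
      exact I.mul_mem_left _ hy
  choose Y hY hYe using fun i j => hmem _ (hN i j)
  have key := matrix_pow_two_mul_eq_zero I hI (Matrix.of Y) hY
  have e : N = (Matrix.of Y).map (Algebra.adjoin k s).subtype := by
    ext i j; exact (hYe i j).symm
  rw [e, ← RingHom.mapMatrix_apply, ← map_pow, key, map_zero]

end Crest.Agent.R176.Gen
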