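import Crest.Agent.R176.Gen.Alg206

/-!
R176 part A, block G3 (helper206): infinitude, finite presentation in the shape of S0266 and the
reduction `S0266_of`.
-/

set_option autoImplicit false

namespace Crest.Agent.R176.Gen

open FreeAlgebra

variable {L : Type} (st : L → L → Option (L × L)) (k : Type) [CommRing k]

theorem A.infinite_of_words [Nontrivial k]
    (h : ∀ n : ℕ, ∃ w : List L, n ≤ w.length ∧ S.of st w ≠ 0) : Infinite (A st k) := by
  have h' : ∀ n : ℕ, ∃ w : List L, w.length = n ∧ S.of st w ≠ 0 := by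
    intro n
    obtain ⟨w, hn, hw⟩ := h n
    refine ⟨w.take n, by simp [hn], ?_⟩
    refine S.of_ne_zero_of_append (p := []) (s := w.drop n) ?_
    simpa using hw
  choose w hl hw using h'
  refine Infinite.of_injective (fun n => A.w st k (w n)) ?_
  intro m n e
  have := S.length_eq ((A.w_eq_iff st k).1 e) (hw m)
  rw [hl, hl] at this
  exact this

section pres

variable {st k}
variable {m : ℕ} (e : L ≃ Fin m)

/-- right hand side of the relation for the pair `(i,j)` -/
noncomputable def rhs (st : L → L → Option (L × L)) (k : Type) [CommRing k] (e : L ≃ Fin m)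
    (i j : Fin m) : FreeAlgebra k (Fin m) :=
  match st (e.symm i) (e.symm j) with
  | none => 0
  | some ab => ι k (e ab.1) * ι k (e ab.2)

open Classical in
/-- The finite set of relations. -/
noncomputable def rels (st : L → L → Option (L × L)) (k : Type) [CommRing k] (e : L ≃ Fin m) :
    Finset (FreeAlgebra k (Fin m) × FreeAlgebra k (Fin m)) :=
  Finset.univ.image fun ij : Fin m × Fin m =>
    (ι k ij.1 * ι k ij.2, rhs st k e ij.1 ij.2)

theorem mem_rels {u v : FreeAlgebra k (Fin m)} :
    (u, v) ∈ rels st k e ↔ ∃ i j : Fin m, ι k i * ι k j = u ∧ rhs st k e i j = v := by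
  simp only [rels, Finset.mem_image, Finset.mem_univ, true_and, Prod.exists, Prod.mk.injEq]

/-- model in the presented algebra -/
noncomputable def presModel :
    Model st (RingQuot fun u v : FreeAlgebra k (Fin m) => (u, v) ∈ rels st k e) where
  f a := RingQuot.mkAlgHom k (fun u v => (u, v) ∈ rels st k e) (ι k (e a))
  rel a b := by
    cases h : st a b with
    | none =>
      rw [← map_mul, ← map_zero (RingQuot.mkAlgHom k (fun u v => (u, v) ∈ rels st k e))]
      refine RingQuot.mkAlgHom_rel k ((mem_rels e).2 ⟨e a, e b, rfl, ?_⟩)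
      simp [rhs, h]
    | some p =>
      dsimp only
      rw [← map_mul, ← map_mul]
      refine RingQuot.mkAlgHom_rel k ((mem_rels e).2 ⟨e a, e b, rfl, ?_⟩)
      simp [rhs, h]

/-- The presentation. -/
noncomputable def A.presEquiv :
    A st k ≃ₐ[k] RingQuot fun u v : FreeAlgebra k (Fin m) => (u, v) ∈ rels st k e :=
  AlgEquiv.ofAlgHom
    (A.lift (presModel e))
    (RingQuot.liftAlgHom k ⟨FreeAlgebra.lift k fun i => (A.model st k).f (e.symm i), by
      intro u v h
      obtain ⟨i, j, rfl, rfl⟩ := (mem_rels e).1 h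
      rw [map_mul, lift_ι_apply, lift_ι_apply]
      unfold rhs
      cases hs : st (e.symm i) (e.symm j) with
      | none => simp only [map_zero]; exact (A.model st k).rel_none hs
      | some ab =>
        simp only [map_mul, lift_ι_apply, Equiv.symm_apply_apply]
        exact (A.model st k).rel_some hs⟩)
    (by
      refine RingQuot.ringQuot_ext' k _ _ ?_
      refine FreeAlgebra.hom_ext ?_
      funext i
      simp only [Function.comp_apply, AlgHom.comp_apply, AlgHom.id_apply]
      rw [RingQuot.liftAlgHom_mkAlgHom_apply, lift_ι_apply, A.lift_f]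
      simp [presModel])
    (by
      refine A.algHom_ext fun a => ?_
      simp only [AlgHom.comp_apply, AlgHom.id_apply]
      rw [A.lift_f]
      unfold presModel
      dsimp only
      rw [RingQuot.liftAlgHom_mkAlgHom_apply, lift_ι_apply, Equiv.symm_apply_apply])

end pres

/-- S0266 from a finite rule table: unboundedly long nonzero words, and nilpotence of matrices
over the augmentation ideal. -/
theorem S0266_of {L : Type} [Fintype L] (st : L → L → Option (L × L))
    (hinf : ∀ n : ℕ, ∃ w : List L, n ≤ w.length ∧ S.of st w ≠ 0)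
    (hnil : ∀ (l : ℕ) (B : Matrix (Fin l) (Fin l) (A st (ZMod 2))),
      (∀ i j, A.aug st (ZMod 2) (B i j) = 0) → IsNilpotent B) :
    ∃ (R : Type) (_ : Ring R) (_ : Algebra (ZMod 2) R) (𝒜 : ℕ → Submodule (ZMod 2) R)
      (_ : GradedAlgebra 𝒜),
      Infinite R ∧ 𝒜 0 = 1 ∧
      (∃ (m : ℕ) (rel : Finset (FreeAlgebra (ZMod 2) (Fin m) × FreeAlgebra (ZMod 2) (Fin m))),
        Nonempty (R ≃ₐ[ZMod 2] RingQuot fun x y : FreeAlgebra (ZMod 2) (Fin m) => (x, y) ∈ rel)) ∧
      ∀ (l : ℕ) (A : Matrix (Fin l) (Fin l) R), (∀ i j, GradedRing.proj 𝒜 0 (A i j) = 0) →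
        IsNilpotent A := by
  refine ⟨A st (ZMod 2), inferInstance, inferInstance, A.deg st (ZMod 2), inferInstance,
    A.infinite_of_words st (ZMod 2) hinf, A.deg_zero st (ZMod 2),
    ⟨Fintype.card L, rels st (ZMod 2) (Fintype.equivFin L),
      ⟨A.presEquiv (Fintype.equivFin L)⟩⟩, ?_⟩
  intro l B hB
  exact hnil l B fun i j => (A.proj_zero_iff st (ZMod 2) _).1 (hB i j)

end Crest.Agent.R176.Gen
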